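import Vale.Agent.P092.H21.S.Over
import Vale.Agent.P092.CLT.MainO

/-!
P092 (helper21), [OV], (O-CL): `OverStmt E` for a group `S` with a homomorphism
`φ : S →* FormGroup σ J` whose range contains the Eichler elements: same inputs as
`coreAllE_ofP`.
-/

set_option linter.all false

open scoped InnerProductSpace ENNReal
open Filter Topology ContinuousLinearMap MeasureTheory TopologicalSpace

namespace Vale.Agent.P092.H21.S

open Vale.Agent.P092.H160 Vale.Agent.P092.SR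
open Vale.Agent.P092.SNT (TVEF tv_tri)
open Vale.Agent.P092.CL
open Vale.Agent.P092.CL.T (PBF LegPF HasLegF NAMono clegs_ofP)
open Vale.Agent.P092.H678.OV (Sys Hsq HTri GTri OverV OverStmt Icc)
open Vale.Agent.P092.H458.OV (pic_of pic2_of orb_of size_of)
open Vale.Agent.P092.H303 (FormGroup)
open Vale.Agent.P092.H370.Po
open Vale.Agent.P092.H370.Fo (EU Wf)

section conc

variable {n : Type} [Fintype n] [DecidableEq n] {k : Type} [NontriviallyNormedField k]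
  [ProperSpace k] {σ : k →+* k} [Fact (Continuous σ)] {ε : k} {J : Matrix n n k} {N r : ℕ}
  {S M V₁ V₂ : Type} [Group S] [MeasurableSpace V₁] [MeasurableSpace V₂]
  [NormedAddCommGroup V₁] [NormedAddCommGroup V₂] [OpensMeasurableSpace V₁]
  [OpensMeasurableSpace V₂] [TopologicalSpace S] [MulAction S (SGr σ J 1)]
  [ContinuousConstSMul S (SGr σ J 1)] [TopologicalSpace M] [CompactSpace M] [MulAction S M]
  [ContinuousConstSMul S M] {L : Lt S (SGr σ J 1) M V₁ V₂} {φ : S →* FormGroup σ J}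

/-- **(O-CL)**, `S → FormGroup σ J` -/
theorem overStmt_ofP {E : Type} [Group E] [TopologicalSpace E] [IsTopologicalGroup E]
    [LocallyCompactSpace E] [SecondCountableTopology E] [T2Space E] {ι : S →* E}
    (e : n ≃ Fin (N + 1)) (hF : Wf σ ε J r) (hr : 2 ≤ r)
    (hφ : ∀ g : FormGroup σ J, g.1 ∈ EU σ ε J → ∃ s, φ s = g)
    (hact : ∀ (g : S) (x : SGr σ J 1), g • x = φ g • x) (hG : Geo L)
    (hA : Adm L ι) (hZ : ScP e φ L) (hN : NmcP e φ L) (hOne : OneStmt L)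
    (hCls : ClsStmtP e φ L) (hNA : NAMono L) (hEx : ExStmtS L ι) : OverStmt E := by
  haveI : NoncompactSpace E := nc_E hG hA
  intro Γ hΓ hicc ℋ _ _ _ V R₁ R₂ hy
  letI : MeasurableSpace E := borel _
  haveI : BorelSpace E := ⟨rfl⟩
  haveI hd : DiscreteTopology Γ := hΓ.disc
  haveI hc : Countable Γ := H790.countable_of_discrete (E := E) Γ
  letI : MeasurableSpace (E ⧸ Γ) := borel _
  haveI : BorelSpace (E ⧸ Γ) := ⟨rfl⟩
  obtain ⟨ν, hP', hν⟩ := H515.IsLattice.exists_prob (Λ := Γ) ⟨hΓ.disc, hΓ.covol⟩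
  obtain ⟨κ₁, _, ξ₁, hT₁, -⟩ := hy.t₁
  obtain ⟨I', hI, ⟨b⟩⟩ := H264.Amp.exists_basis (H264.Amp.pars_of_tri hT₁)
  have p2 := pic2_of hν hy hT₁
  have tv := tv_tri hν hT₁.adjV b hT₁
  obtain ⟨𝒰, κ₁, κ₂, _, _, Ω₁, Ω₂, m₁, m₂, q₁, q₂, l1, l2, i1, i2⟩ :=
    hEx (Γ := Γ) hν hicc hy hT₁.adjV
  obtain ⟨Q₁, Q₂, h1, h2, h12⟩ := clegs_ofP e hF hr hφ hact hG hA hZ hN hOne hCls hNA p2 tv l1 l2
    i1 i2 l1.base.ph l2.base.ph l1.base.fin l2.base.fin
  exact H264.Amp.over_of_legs hν hT₁ (X := H34.Ind.Xset (H85.cdat ν hν) ℋ)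
    (fun S hS => ⟨S, hS, rfl⟩) h1 h2 h12

end conc

end Vale.Agent.P092.H21.S
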