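import Vale.Agent.P092.H21.S.Leg
import Vale.Agent.P092.CLT.Main

/-!
P092 (helper21), [OV], (O-CL): `OverStmt E` for every admissible source group `E` of a classical
group with letters `L` over the group of a form: same inputs as `coreAllE_of` and `exHalfT_of`.
-/

set_option linter.all false

open scoped InnerProductSpace ENNReal
open Filter Topology ContinuousLinearMap MeasureTheory TopologicalSpace

namespace Vale.Agent.P092.H21.S

open Vale.Agent.P092.H160 Vale.Agent.P092.SR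
open Vale.Agent.P092.SNT (TVEF tv_tri)
open Vale.Agent.P092.H933 (LeviGap)
open Vale.Agent.P092.CL
open Vale.Agent.P092.CL.T (PBF LegPF HasLegF NAMono clegs_of)
open Vale.Agent.P092.H34.Ind (Xset)
open Vale.Agent.P092.H71.CLO (SprL prp_adm)
open Vale.Agent.P092.H678.OV (Sys Hsq HTri GTri OverV OverStmt Icc)
open Vale.Agent.P092.H21.C
open Vale.Agent.P092.H458.OV (pic_of pic2_of orb_of size_of)
open Vale.Agent.P092.H303 (FormGroup)
open Vale.Agent.P092.H325.CL (Sc Nmc)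
open Vale.Agent.P092.H714.Cl (Frm)
open Vale.Agent.P092.H370.Po

/-! ### Both legs of a system -/

/-- **[CL-EX-S]** the concrete picture of an irreducible system over a source group `E`: both
legs. -/
def ExStmtS {S P M V₁ V₂ : Type} [Group S] [MeasurableSpace V₁] [MeasurableSpace V₂]
    [TopologicalSpace S] [MulAction S P] [TopologicalSpace P] [CompactSpace P]
    [ContinuousConstSMul S P] [MulAction S M] [TopologicalSpace M] [CompactSpace M]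
    [ContinuousConstSMul S M] [NormedAddCommGroup V₁] [NormedAddCommGroup V₂]
    (L : Lt S P M V₁ V₂) {E : Type} [Group E] [TopologicalSpace E] [IsTopologicalGroup E]
    [LocallyCompactSpace E] [SecondCountableTopology E] [T2Space E] (ι : S →* E) : Prop :=
  ∀ [MeasurableSpace E] [BorelSpace E] {Γ : Subgroup E} [DiscreteTopology Γ] [Countable Γ]
    [MeasurableSpace (E ⧸ Γ)] [BorelSpace (E ⧸ Γ)] {ν : Measure (E ⧸ Γ)}
    [IsProbabilityMeasure ν] (hν : ∀ g : E, ν.map (fun x => g • x) = ν)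
    (_ : ∀ g : Γ, g ≠ 1 → Set.Infinite {y : Γ | ∃ h, y = h * g * h⁻¹})
    {ℋ : Type} [NormedAddCommGroup ℋ] [InnerProductSpace ℂ ℋ] [CompleteSpace ℋ]
    {V R₁ R₂ : Γ →* (ℋ →L[ℂ] ℋ)} (_ : Sys V R₁ R₂) (hV : ∀ v, adjoint (V v) = V v⁻¹),
    ∃ (𝒰 : Ultrafilter ℕ) (κ₁ κ₂ : Type) (_ : Fintype κ₁) (_ : Fintype κ₂)
      (Ω₁ : κ₁ → Lp ℋ 2 (H85.cdat ν hν).μ) (Ω₂ : κ₂ → Lp ℋ 2 (H85.cdat ν hν).μ)
      (m₁ m₂ : Set Γ → (Lp ℋ 2 (H85.cdat ν hν).μ →L[ℂ] Lp ℋ 2 (H85.cdat ν hν).μ)) (q₁ q₂ : Γ → S),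
      HasLegF L 𝒰 ι (H34.Ind.pi (H85.cdat ν hν) (V := V) hV)
        (H34.Ind.lam (H85.cdat ν hν) R₁)
        (Xset (H85.cdat ν hν) ℋ ∪ Set.range (H34.Ind.lam (H85.cdat ν hν) R₂)) Ω₁ m₁ q₁ ∧
      HasLegF L 𝒰 ι (H34.Ind.pi (H85.cdat ν hν) (V := V) hV)
        (H34.Ind.lam (H85.cdat ν hν) R₂)
        (Xset (H85.cdat ν hν) ℋ ∪ Set.range (H34.Ind.lam (H85.cdat ν hν) R₁)) Ω₂ m₂ q₂ ∧
      (∀ γ, q₁ γ ∈ L.Z → γ = 1) ∧ (∀ γ, q₂ γ ∈ L.Z → γ = 1)

/-- **Both legs**, from the geometry, the gauges, the overlap, the growth of the root groups, the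
gap of the two walls and the masses. -/
theorem exS_of {S P M V₁ V₂ : Type} [Group S] [MeasurableSpace V₁] [MeasurableSpace V₂]
    {L : Lt S P M V₁ V₂} [TopologicalSpace S] [MulAction S P] [TopologicalSpace P]
    [CompactSpace P] [ContinuousConstSMul S P] [MulAction S M] [TopologicalSpace M]
    [CompactSpace M] [ContinuousConstSMul S M] [NormedAddCommGroup V₁] [NormedAddCommGroup V₂]
    [ProperSpace V₁] [ProperSpace V₂] [BorelSpace V₁] [BorelSpace V₂]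
    {E : Type} [Group E] [TopologicalSpace E] [IsTopologicalGroup E] [LocallyCompactSpace E]
    [SecondCountableTopology E] [T2Space E] {ι : S →* E} (hG : Geo L) {T : Gau S P M}
    (hT : GauOk L T) (hO : OvlStmt L T) (h : Adm L ι)
    (f1 : IsFiniteMeasureOnCompacts L.μ₁) (f2 : IsFiniteMeasureOnCompacts L.μ₂) (hs : SprL L)
    (g1 : LeviGap L.b1) (g2 : LeviGap L.b2) (hM : MassStmt L T ι) : ExStmtS L ι := by
  intro _ _ Γ _ _ _ _ ν _ hν hicc ℋ _ _ _ V R₁ R₂ hy hV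
  haveI := hG.tg
  have hq : ∀ γ : Γ, ι (Function.surjInv h.sur (γ : E)) = γ := fun γ =>
    Function.surjInv_eq h.sur _
  have G1 := H684.Psp.leviGap_proper ι h.cι h.sur g1
  have G2 := H684.Psp.leviGap_proper ι h.cι h.sur g2
  obtain ⟨κ₁, _, ξ₁, hT₁, hh₁⟩ := hy.t₁
  obtain ⟨κ₂, _, ξ₂, hT₂, hh₂⟩ := hy.t₂
  obtain ⟨κ₃, _, ζ₁, h₁⟩ := hy.g₁
  obtain ⟨κ₄, _, ζ₂, h₂⟩ := hy.g₂
  exact ⟨hyperfilter ℕ, κ₁, κ₂, inferInstance, inferInstance, _, _, _, _,
    fun γ => Function.surjInv h.sur (γ : E), fun γ => Function.surjInv h.sur (γ : E),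
    legF_S hν hicc hy hT₁ hh₁ h₁ hG hT hO h f1 f2 hs Nat.hyperfilter_le_atTop G1 G2 hM hq,
    legF_S hν hicc hy.swap hT₂ hh₂ h₂ hG hT hO h f1 f2 hs Nat.hyperfilter_le_atTop G1 G2 hM hq,
    inj_lift hG h hq hicc, inj_lift hG h hq hicc⟩

/-! ### The overlap -/

section conc

variable {n : Type} [Fintype n] [DecidableEq n] {k : Type} [NontriviallyNormedField k]
  [ProperSpace k] {σ : k →+* k} [Fact (Continuous σ)] {ε : k} {J : Matrix n n k} {N r : ℕ}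
  {M V₁ V₂ : Type} [MeasurableSpace V₁] [MeasurableSpace V₂] [NormedAddCommGroup V₁]
  [NormedAddCommGroup V₂] [OpensMeasurableSpace V₁] [OpensMeasurableSpace V₂]
  [TopologicalSpace M] [CompactSpace M] [MulAction (FormGroup σ J) M]
  [ContinuousConstSMul (FormGroup σ J) M] {L : Lt (FormGroup σ J) (SGr σ J 1) M V₁ V₂}

/-- **(O-CL)** -/
theorem overStmt_of {E : Type} [Group E] [TopologicalSpace E] [IsTopologicalGroup E]
    [LocallyCompactSpace E] [SecondCountableTopology E] [T2Space E] {ι : FormGroup σ J →* E}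
    (e : n ≃ Fin (N + 1)) (hF : Frm σ ε J) (hW : WI σ J r) (hr : 2 ≤ r) (hG : Geo L)
    (hA : Adm L ι) (hZ : Sc e L) (hN : Nmc e L) (hOne : OneStmt L) (hCls : ClsStmt e L)
    (hNA : NAMono L) (hEx : ExStmtS L ι) : OverStmt E := by
  haveI : NoncompactSpace E := nc_E hG hA
  intro Γ hΓ hicc ℋ _ _ _ V R₁ R₂ hy
  letI : MeasurableSpace E := borel _
  haveI : BorelSpace E := ⟨rfl⟩
  haveI hd : DiscreteTopology Γ := hΓ.disc
  haveI hc : Countable Γ := H790.countable_of_discrete (E := E) Γ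
  letI : MeasurableSpace (E ⧸ Γ) := borel _
  haveI : BorelSpace (E ⧸ Γ) := ⟨rfl⟩
  obtain ⟨ν, hP', hν⟩ := H515.IsLattice.exists_prob (Λ := Γ) ⟨hΓ.disc, hΓ.covol⟩
  obtain ⟨κ₁, _, ξ₁, hT₁, -⟩ := hy.t₁
  obtain ⟨I', hI, ⟨b⟩⟩ := H264.Amp.exists_basis (H264.Amp.pars_of_tri hT₁)
  have p2 := pic2_of hν hy hT₁
  have tv := tv_tri hν hT₁.adjV b hT₁
  obtain ⟨𝒰, κ₁, κ₂, _, _, Ω₁, Ω₂, m₁, m₂, q₁, q₂, l1, l2, i1, i2⟩ :=
    hEx (Γ := Γ) hν hicc hy hT₁.adjV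
  obtain ⟨Q₁, Q₂, h1, h2, h12⟩ := clegs_of e hF hW hr hG hA hZ hN hOne hCls hNA p2 tv l1 l2 i1 i2
    l1.base.ph l2.base.ph l1.base.fin l2.base.fin
  exact H264.Amp.over_of_legs hν hT₁ (X := H34.Ind.Xset (H85.cdat ν hν) ℋ)
    (fun S hS => ⟨S, hS, rfl⟩) h1 h2 h12

end conc

end Vale.Agent.P092.H21.S
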