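import Vale.Agent.P092.H21.C.ExT
import Vale.Agent.P092.H458.O.Gen

/-!
P092 (helper21), [OV], (O-CL): the first leg of the picture `L²(E/Γ; ℋ)` of an irreducible system
`Sys V R₁ R₂` (helper678), `E` an admissible source group of a classical group with letters `L`.
-/

set_option linter.all false

open scoped InnerProductSpace ENNReal
open Filter Topology ContinuousLinearMap MeasureTheory TopologicalSpace

namespace Vale.Agent.P092.H21.S

open Vale.Agent.P092.H160 Vale.Agent.P092.SR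
open Vale.Agent.P092.SNT (TVEF tv_tri)
open Vale.Agent.P092.H933 (LeviGap)
open Vale.Agent.P092.CL
open Vale.Agent.P092.CL.T (PBF LegPF HasLegF)
open Vale.Agent.P092.H34.Ind (Xset)
open Vale.Agent.P092.H859.CL (st)
open Vale.Agent.P092.H71.CLO (SprL prp_adm)
open Vale.Agent.P092.H678.OV (Sys Hsq HTri GTri OverV OverStmt Icc)
open Vale.Agent.P092.H21.C
open Vale.Agent.P092.H421.GrT (MskL sz3_exp_exp)
open Vale.Agent.P092.H458.OV (pic_of pic2_of orb_of size_of)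
open Vale.Agent.P092.SD (MsF UC)

section leg

variable {S P M V₁ V₂ : Type} [Group S] [MeasurableSpace V₁] [MeasurableSpace V₂]
  {L : Lt S P M V₁ V₂} [TopologicalSpace S] [MulAction S P] [TopologicalSpace P] [CompactSpace P]
  [ContinuousConstSMul S P] [MulAction S M] [TopologicalSpace M] [CompactSpace M]
  [ContinuousConstSMul S M] [NormedAddCommGroup V₁] [NormedAddCommGroup V₂]
  [ProperSpace V₁] [ProperSpace V₂] [BorelSpace V₁] [BorelSpace V₂]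
  {E : Type} [Group E] [TopologicalSpace E] [IsTopologicalGroup E] [LocallyCompactSpace E]
  [SecondCountableTopology E] [T2Space E] [MeasurableSpace E] [BorelSpace E] {ι : S →* E}
  {Γ : Subgroup E} [DiscreteTopology Γ] [Countable Γ] [MeasurableSpace (E ⧸ Γ)]
  [BorelSpace (E ⧸ Γ)] {ν : Measure (E ⧸ Γ)} [IsProbabilityMeasure ν]
  (hν : ∀ g : E, ν.map (fun x => g • x) = ν)
  (hΓ : ∀ g : Γ, g ≠ 1 → Set.Infinite {y : Γ | ∃ h, y = h * g * h⁻¹})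
  {ℋ : Type} [NormedAddCommGroup ℋ] [InnerProductSpace ℂ ℋ] [CompleteSpace ℋ]
  {V R₁ R₂ : Γ →* (ℋ →L[ℂ] ℋ)} (hy : Sys V R₁ R₂)
  {κ κ' : Type} [Fintype κ] [Fintype κ'] {ξ : κ → ℋ} (hT : Tri V R₁ R₂ ξ) (hh : Hon R₁ R₂ ξ)
  {ζ : κ' → ℋ} (h' : Tri R₁ V R₂ ζ)

include hΓ hh h' in
theorem ms_S : MsF (H34.Ind.lam (H85.cdat ν hν) R₁)
    (Xset (H85.cdat ν hν) ℋ ∪ Set.range (H34.Ind.lam (H85.cdat ν hν) R₂))
    (H34.AmpE.nrm hν ξ) (st (mT (H85.cdat ν hν) hT)) :=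
  H458.HalfT.msF_E (H85.cdat ν hν) hT hh h' hΓ (RC.nrm_ne hT.ne)

theorem uc_S (i : κ) : UC (H34.Ind.pi (H85.cdat ν hν) (V := V) hT.adjV)
    (Xset (H85.cdat ν hν) ℋ ∪ Set.range (H34.Ind.lam (H85.cdat ν hν) R₂))
    (H34.AmpE.nrm hν ξ i) (st (mT (H85.cdat ν hν) hT)) := uc_T hν hT i

include h' in
theorem orb_S {W : Type} [NormedAddCommGroup W] [ProperSpace W] [MeasurableSpace W]
    [BorelSpace W] {μ : Measure W} [IsFiniteMeasureOnCompacts μ] {b : E} {n : W → E}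
    (hn : Continuous n) (hs : ∃ ρ : ℝ, 0 < ρ ∧ ρ < 1 ∧ H368.SN.Spr μ b n ρ) :
    ∃ ρ : ℝ, 0 < ρ ∧ ρ < 1 ∧
      SNT.ORBGF μ b n ρ (H34.Ind.pi (H85.cdat ν hν) (V := V) hT.adjV)
        (H34.Ind.lam (H85.cdat ν hν) R₁)
        (Xset (H85.cdat ν hν) ℋ ∪ Set.range (H34.Ind.lam (H85.cdat ν hν) R₂))
        (H34.AmpE.nrm hν ξ) := by
  obtain ⟨ρ, h0, h1, hs⟩ := hs
  exact ⟨ρ, h0, h1, orb_of hν hn hs hT h'⟩

include hy hΓ hh h' in
/-- **The base record of the first leg of a system.** -/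
theorem pbF_S (hG : Geo L) (h : Adm L ι)
    (f1 : IsFiniteMeasureOnCompacts L.μ₁) (f2 : IsFiniteMeasureOnCompacts L.μ₂) (hs : SprL L)
    {𝒰 : Ultrafilter ℕ} (h𝒰 : (𝒰 : Filter ℕ) ≤ atTop) (g1 : LeviGap (ι L.b1))
    (g2 : LeviGap (ι L.b2)) {q : Γ → S} (hq : ∀ γ, ι (q γ) = γ) :
    PBF L 𝒰 ι (H34.Ind.pi (H85.cdat ν hν) (V := V) hT.adjV)
      (H34.Ind.lam (H85.cdat ν hν) R₁)
      (Xset (H85.cdat ν hν) ℋ ∪ Set.range (H34.Ind.lam (H85.cdat ν hν) R₂))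
      (H34.AmpE.nrm hν ξ) (st (mT (H85.cdat ν hν) hT)) q := by
  haveI := ncE hG h
  have hph := ph_lift h hq
  have hfin := fin_lift hG h hq
  obtain ⟨D, hD, hσ⟩ := H958.CLo.exists_flt hph hG.nm_pos hG.z_nm hG.nm_mul
  have hms := ms_S hν hΓ hT hh h'
  exact
    { adm := h
      h𝒰 := h𝒰
      pic := pic_of hν hy hT h'
      ms := hms
      uc := uc_S hν hT
      ph := hph
      fin := hfin
      ud := ud_of_fin hG hph hfin
      orb1 := orb_S hν hT h' (h.cι.comp hG.u1c) (sprE hG h hs.s1)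
      orb2 := orb_S hν hT h' (h.cι.comp hG.u2c) (sprE hG h hs.s2)
      orb2' := orb_S hν hT h' (h.cι.comp hG.u1c) (sprE hG h hs.s2')
      size1 := fun i => sz3_exp_exp (MskL.of_msF hms)
        (size_of hν hy hT (MskL.of_msF hms) hD hσ g1 i)
      size2 := fun i => sz3_exp_exp (MskL.of_msF hms)
        (size_of hν hy hT (MskL.of_msF hms) hD hσ g2 i)
      prox1 := prox1_lift hG h hν hq
      prox2 := prox2_lift hG h hν hq
      nis1 := nis_lift1 hG h hν hq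
      nis2 := nis_lift2 hG h hν hq }

include hy hΓ hh h' in
/-- **The first leg of a system.** -/
theorem legF_S (hG : Geo L) {T : Gau S P M}
    (hT0 : GauOk L T) (hO : OvlStmt L T) (h : Adm L ι)
    (f1 : IsFiniteMeasureOnCompacts L.μ₁) (f2 : IsFiniteMeasureOnCompacts L.μ₂) (hs : SprL L)
    {𝒰 : Ultrafilter ℕ} (h𝒰 : (𝒰 : Filter ℕ) ≤ atTop) (g1 : LeviGap (ι L.b1))
    (g2 : LeviGap (ι L.b2)) (hM : MassStmt L T ι) {q : Γ → S} (hq : ∀ γ, ι (q γ) = γ) :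
    HasLegF L 𝒰 ι (H34.Ind.pi (H85.cdat ν hν) (V := V) hT.adjV)
      (H34.Ind.lam (H85.cdat ν hν) R₁)
      (Xset (H85.cdat ν hν) ℋ ∪ Set.range (H34.Ind.lam (H85.cdat ν hν) R₂))
      (H34.AmpE.nrm hν ξ) (st (mT (H85.cdat ν hν) hT)) q := by
  haveI := ncE hG h
  have hb := pbF_S hν hΓ hy hT hh h' hG h f1 f2 hs h𝒰 g1 g2 hq
  obtain ⟨I', hI, ⟨b⟩⟩ := H264.Amp.exists_basis (H264.Amp.pars_of_tri hT)
  have hW := hM hν hT hh h' hΓ hb.pic (tv_tri hν hT.adjV b hT) q hq hb.ph hb.fin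
  obtain ⟨c, i, hv⟩ := exists_v0 hν hT
  have w1 := wal_T hν hT hΓ h' hh hT0 hb.ph (coc_b1 hG h) hW.1.n1 hW.1.n2 hW.1.ty c i
  have w2 := wal_T hν hT hΓ h' hh hT0 hb.ph (coc_b2 hG h) hW.2.n1 hW.2.n2 hW.2.ty c i
  obtain ⟨U11, p11, U12, p12, U21, p21, U22, p22, H⟩ := legQ_of (q := q) hG hT0 hO h h𝒰 hb.pic
    hb.ms hb.ph hb.fin hb.nis1 hb.nis2 (leg_T (H85.cdat ν hν) hT hh hΓ h')
    (slow_T (H85.cdat ν hν) hT hΓ h' hh (H43.ccont_cdat ν hν))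
    (loc2_T (H85.cdat ν hν) hT hΓ h' hh) hv w1 w2
  exact ⟨U11, p11, U12, p12, U21, p21, U22, p22,
    { base := hb
      u11 := H.u11
      u12 := H.u12
      u21 := H.u21
      u22 := H.u22
      s1 := H.s1
      s2 := H.s2
      i11 := H.i11
      i12 := H.i12 }⟩

end leg

end Vale.Agent.P092.H21.S
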